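import Vale.Agent.P287T.Df.Tp

/-!
# The topology of the normed model is preferred to the subspace topology (see `Df/Tp`)
-/
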