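import Vale.Agent.P287T.Oc.Tp
import Vale.Agent.P287T.Sw.Ht4
import Vale.Agent.P287T.Df.ModD
import Vale.Agent.P287T.Op.Mx1

/-!
# Openness and properness of semistability in terms of raw matrices
-/

namespace Vale.Agent.P287T.Oc

open MvPolynomial Filter Topology CategoryTheory P294 P287T.Cy P287T.Rr P287T.Df P287T.G3
  P287T.G3.Mx P287T.Op P287T.Sw

attribute [local instance] algS

variable {I : Type} {l : Filter I} {W : I → S6} {W0 : S6}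

theorem cv_fin {E : Type} [NormedAddCommGroup E] [NormedSpace ℂ E] [FiniteDimensional ℂ E]
    {x : I → E} {a : E} (h : Tendsto x l (𝓝 a)) : Cv l x a := by
  let e := (Module.finBasis ℂ E).equivFun
  exact ((Cv.of_tendsto_pi ((e.toLinearMap.continuous_of_finiteDimensional.tendsto a).comp h)).map
    e.symm.toLinearMap).congr' (fun n => e.symm_apply_apply _) (e.symm_apply_apply _)

theorem mlim_of {E : HM W0} {d : I → MM E.pz E.pz 3} (hd : Tendsto d l (𝓝 (dM E)))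
    {X : ∀ n, HM (W n)} (hX : ∀ᶠ n in l, ∃ h : IsMF (W n) E.pz (d n).1, Nonempty (ofRaw h ≅ X n)) :
    MLim l (W := fun n => mvS (W n)) X E := by
  refine ⟨fun n => (d n).1, Cv.matrix (M := (G3.mvCtx 6).S) fun i j => ?_,
    hX.mono fun n ⟨h, ⟨e⟩⟩ => ⟨(ofRaw h).deg, h.sq, ⟨e.symm⟩⟩⟩
  let f : MM E.pz E.pz 3 →ₗ[ℂ] (G3.mvCtx 6).S :=
    { toFun := fun g => mvS (g.1 i j)
      map_add' := fun _ _ => rfl
      map_smul' := fun z s => smul_eq_C_mul (s.1 i j) z }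
  exact (cv_fin hd).map f

theorem of_mlim {E : HM W0} {X : ∀ n, HM (W n)} (h : MLim l (W := fun n => mvS (W n)) X E) :
    ∃ d : I → MM E.pz E.pz 3, Tendsto d l (𝓝 (dM E)) ∧
      ∀ᶠ n in l, ∃ h : IsMF (W n) E.pz (d n).1, Nonempty (ofRaw h ≅ X n) := by
  obtain ⟨d, h1, h2⟩ := h
  have h3 : ∀ᶠ n in l, ∃ h : IsMF (W n) E.pz (d n), Nonempty (ofRaw h ≅ X n) :=
    h2.mono fun n ⟨a, b, ⟨e⟩⟩ =>
      ⟨MF.isMF (W := W n) (⟨E.ι, E.p, d n, a, b⟩ : HM (W n)), ⟨e.symm⟩⟩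
  refine ⟨fun n => prj E.pz E.pz 3 (d n), tendsto_MM.2 fun i j m => ?_, h3.mono fun n hn => ?_⟩
  · refine (((h1.entry i j).map (coefL 6 m)).tendsto).congr' (h3.mono fun n ⟨a, _⟩ => ?_)
    exact congrArg (fun g : Matrix E.ι E.ι S6 => coeff m (g i j)) (prj_of_mem a.deg).symm
  · obtain ⟨a, e⟩ := hn
    rw [prj_of_mem a.deg]
    exact ⟨a, e⟩

/-- semistability is open -/
def OpO : Prop := ∀ {I : Type} (𝒰 : Ultrafilter I) {W : I → S6} {W0 : S6} (c : ∀ n, Cu (W n))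
  (c0 : Cu W0), (∀ m, Tendsto (fun n => coeff m (W n)) 𝒰 (𝓝 (coeff m W0))) →
  ∀ (X : ∀ n, HM (W n)) (E : HM W0) (φ : ℝ), MLim 𝒰 (W := fun n => mvS (W n)) X E →
    (sgW c0).P φ E → ∀ᶠ n in (𝒰 : Filter I), (sgW (c n)).P φ (X n)

/-- semistable reduction -/
def OpP : Prop := ∀ {I : Type} (𝒰 : Ultrafilter I) {W : I → S6} {W0 : S6} (c : ∀ n, Cu (W n))
  (c0 : Cu W0), (∀ m, Tendsto (fun n => coeff m (W n)) 𝒰 (𝓝 (coeff m W0))) →
  ∀ (X : ∀ n, HM (W n)) (φ : ℝ) (z : ℂ),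
    (∀ᶠ n in (𝒰 : Filter I), (sgW (c n)).P φ (X n) ∧ Zf (X n) = z) →
    ∃ E : HM W0, (sgW c0).P φ E ∧ MLim 𝒰 (W := fun n => mvS (W n)) X E

theorem ev_of_ultra {A : I → Prop}
    (h : ∀ 𝒰 : Ultrafilter {x // A x}, Tendsto (fun x : {x // A x} => x.1) 𝒰 l → False) : ∀ᶠ x in l, ¬A x := by
  by_contra h1
  have h2 : (comap (Subtype.val : {x // A x} → I) l).NeBot := by
    refine comap_neBot fun t ht => ?_
    obtain ⟨x, h3, h4⟩ := ((not_eventually.1 h1).and_eventually ht).exists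
    exact ⟨⟨x, not_not.1 h3⟩, h4⟩
  exact h (Ultrafilter.of _) (tendsto_iff_comap.2 (Ultrafilter.of_le _))

theorem open_raw (hO : OpO) (c0 : Cu W0)
    (hW : ∀ m, Tendsto (fun n => coeff m (W n)) l (𝓝 (coeff m W0))) {E : HM W0}
    {d : I → MM E.pz E.pz 3} (hd : Tendsto d l (𝓝 (dM E))) {φ : ℝ} (hE : (sgW c0).P φ E) :
    ∀ᶠ n in l, ∀ (c : Cu (W n)) (h : IsMF (W n) E.pz (d n).1), (sgW c).P φ (ofRaw h) := by
  have := ev_of_ultra (l := l) (A := fun n => ∃ (c : Cu (W n)) (h : IsMF (W n) E.pz (d n).1),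
    ¬(sgW c).P φ (ofRaw h)) fun 𝒰 hU => by
      obtain ⟨n, hn⟩ := (hO 𝒰 (W := fun n => W n.1) (fun n => n.2.1) c0
        (fun m => (hW m).comp hU) (fun n => ofRaw n.2.2.1) E φ (mlim_of (hd.comp hU)
          (Eventually.of_forall fun n => ⟨n.2.2.1, ⟨Iso.refl _⟩⟩)) hE).exists
      exact n.2.2.2 hn
  filter_upwards [this] with n hn c h
  exact not_not.1 fun e => hn ⟨c, h, e⟩

theorem cpt_raw (hP : OpP) (𝒰 : Ultrafilter I) (c : ∀ n, Cu (W n)) (c0 : Cu W0)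
    (hW : ∀ m, Tendsto (fun n => coeff m (W n)) 𝒰 (𝓝 (coeff m W0))) (X : ∀ n, HM (W n)) {φ : ℝ}
    {z : ℂ} (hX : ∀ᶠ n in (𝒰 : Filter I), (sgW (c n)).P φ (X n) ∧ Zf (X n) = z) :
    ∃ E : HM W0, (sgW c0).P φ E ∧ ∃ d : I → MM E.pz E.pz 3, Tendsto d 𝒰 (𝓝 (dM E)) ∧
      ∀ᶠ n in (𝒰 : Filter I), ∃ h : IsMF (W n) E.pz (d n).1, Nonempty (ofRaw h ≅ X n) := by
  obtain ⟨E, h1, h2⟩ := hP 𝒰 c c0 hW X φ z hX
  exact ⟨E, h1, of_mlim h2⟩

end Vale.Agent.P287T.Oc
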