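import Vale.Agent.P287T.Oc.Main
import Vale.Agent.P287T.Op.T2
import Vale.Agent.P287T.Cl.Add
import Vale.Agent.P287T.Top.Hg

/-!
# The block OC in the shape used by the propagation
-/

namespace Vale.Agent.P287T.Oc

open Filter P287T.Cy P287T.G3 P287T.G3.Mx P287T.Top P287T.Cl P287T.Df

theorem opO : OpO := fun _ _ _ c c0 h _ _ _ hX hE =>
  opP (fun n => (c n).hom) (fun n => (c n).sm) c0.hom c0.sm
    (cv_mvS (Eventually.of_forall fun n => (c n).hom) c0.hom h) hX hE

theorem prpP : OpP := fun _ _ _ c c0 h _ _ _ hX =>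
  prP (fun n => (c n).hom) (fun n => (c n).sm) c0.hom c0.sm
    (cv_mvS (Eventually.of_forall fun n => (c n).hom) c0.hom h) hX

theorem pp_eq : Oc.PP = Top.PP := funext fun _ => funext fun _ => propext
  ⟨fun ⟨c, E, φ, h⟩ => ⟨c, φ, E, h⟩, fun ⟨c, φ, E, h⟩ => ⟨c, E, φ, h⟩⟩

theorem stOpn (hK : StKur) (hM : StMem) : StOpn := by
  unfold StOpn
  rw [← pp_eq]
  exact opn opO hK hM

theorem stCls : StCls := by
  unfold StCls
  rw [← pp_eq]
  exact cls prpP stAdd

end Vale.Agent.P287T.Oc
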