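import Vale.Agent.P287T.Oc.Flat
import Vale.Agent.P287T.Per.Fil
import Vale.Agent.P287T.Per.Top
import Vale.Agent.P287T.G3.Br2

/-!
# Deformations of a matrix factorization are confined to the Noether-Lefschetz locus
-/

set_option linter.unusedSectionVars false
set_option linter.style.haveILetI false

namespace Vale.Agent.P287T.Oc

open Set Function Module Matrix MvPolynomial Filter Topology P291Z P269 P269.Holo P269.Mono P269.Tq
  P269.Ch P269.Grr P287Q P287Q.Cub P287T.Cy P287T.Rr P287T.Df P287Z.O P287Z.O.L Metric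

variable {ι : Type} [Fintype ι] [DecidableEq ι] {F W : S6} {p : ι → ℤ} {d : Matrix ι ι S6}

/-- the classes of matrix factorizations are of type `(2, 2)` -/
def TyH : Prop := ∀ {ι : Type} [Fintype ι] [DecidableEq ι] {W : S6} (c : Cu W) {p : ι → ℤ}
  {d : Matrix ι ι S6} (h : IsMF W p d), ((c.nE h).1 : H (XF W)) ∈ Per.TT W 2 2

theorem per (c : Cu W) : Per.Sm W := ⟨c.hom, c.sm⟩

theorem cu (h : Per.Sm W) : Cu W := ⟨h.hom, h.sm⟩

theorem h_pow (c : Cu W) (k : ℕ) : ((c.h ^ k).1 : H (XF W)) = hyp W ^ k := by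
  rw [← c.h_val]
  rfl

theorem nE_deg (c : Cu W) (h : IsMF W p d) : H.IsDeg 4 ((c.nE h).1 : H (XF W)) := by
  have h1 : H.IsDeg 4 (PowerSeries.coeff 2 (c.VE h).chc).1 := Hev.mem_deg.1 (chc_deg (c.VE h) 2)
  have h2 : H.IsDeg 4 (c.h ^ 2).1 := by
    have h3 := (per c).cubH.lf.deg
    rw [h_pow, sq]
    exact h3.mul h3
  exact sub_mem (show _ ∈ H.deg _ 4 from h1) (Submodule.smul_mem (H.deg _ 4) _ h2)

theorem nE_prim (c : Cu W) (h : IsMF W p d) :
    hyp W * (show H (XF W) from (c.nE h).1) = 0 := by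
  refine (Per.fil_prim_iff (per c).cubH (nE_deg c h)).2 ?_
  have h1 : c.J (c.h ^ 4).1 = 3 := (congrArg c.J (h_pow c 4)).trans (per c).cubH.deg
  have h2 : ∀ a : Hev c.Y.X, c.J (c.h ^ 2 * c.prim a).1 = 0 := fun a => by
    rw [Cu.prim, mul_sub, mul_smul_comm, ← pow_add, mul_comm (c.h ^ 2)]
    change c.J (_ - _ • _) = 0
    rw [map_sub, map_smul, h1, smul_eq_mul]
    ring
  rw [← h_pow c 2]
  exact h2 _

theorem tr_id (W : S6) : Per.Tr W W id :=
  ⟨⟨fun _ _ => contDiffAt_id, fun _ h => h, fun _ _ _ _ => rfl⟩, fun _ _ => rfl⟩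

/-- the class is locally constant for a fixed potential -/
theorem flat_fix (c : Cu W) {d0 : MM p p 3} (h0 : IsMF W p d0.1) :
    ∀ᶠ d : MM p p 3 in 𝓝 d0, ∀ hd : IsMF W p d.1, c.nE hd = c.nE h0 := by
  have h1 : ∀ A, pS (mor c c (tr_id W)).map A = A := fun A => PowerSeries.ext fun k => by
    rw [PowerSeries.coeff_map]
    refine Hev.map_id (fun x => ?_) _
    obtain ⟨t, rfl⟩ := c.Y.surj x
    exact Mor.map_π _ _
  filter_upwards [flat_chc c (s0 := d0) (W := fun _ => W) (Φ := fun _ => id) (d := fun d => d.1)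
    (fun x _ => (cont_evM p p 3).continuousAt) c (tr_id W) h0] with d hd h
  have h2 := hd c (tr_id W) h
  rw [h1, h1] at h2
  rw [Cu.nE, Cu.nE, h2]

variable {T : Type} [NormedAddCommGroup T] [NormedSpace ℂ T] [FiniteDimensional ℂ T]
  {P : T →ₗ[ℂ] S6}

/-- the family of potentials -/
noncomputable def wP (h : Per.Sm F) (hP : ∀ t, (P t).IsHomogeneous 3) (t : T) : Hs 6 :=
  ⟨F + P t, G3.hg_of_isHomogeneous (h.hom.add (hP t))⟩

theorem wP_val (h : Per.Sm F) (hP : ∀ t, (P t).IsHomogeneous 3) (t : T) :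
    (wP h hP t).1 = F + P t := rfl

theorem an_coeff (F : S6) (P : T →ₗ[ℂ] S6) (m : Fin 6 →₀ ℕ) (t : T) :
    AnalyticAt ℂ (fun t => coeff m (F + P t)) t := by
  simp only [coeff_add]
  exact analyticAt_const.add ((lcoeff ℂ m ∘ₗ P).toContinuousLinearMap.analyticAt t)

theorem wP_an (h : Per.Sm F) (hP : ∀ t, (P t).IsHomogeneous 3) (t : T) :
    AnalyticAt ℂ (wP h hP) t := analyticAt_Hs.2 fun m => an_coeff F P m t

variable {h : Per.Sm F} {r : ℝ} {Φ : T → Per.V → Per.V} {σ : T → H (XF F)}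
  {η : T → T →ₗ[ℂ] H (XF F)} (k : Per.PM h P r Φ σ η)

theorem J_zero {t : T} (ht : t ∈ ball 0 r) {y : H (XF (F + P t))} (hy : y ∈ Per.TT (F + P t) 2 2) :
    h.J (H.map (k.tr t ht).φ y * σ t) = 0 := by
  obtain ⟨s, h1, h2, h3⟩ := k.om t ht
  rw [h3, ← map_mul, (Per.stTop h (k.sm t ht) (k.tr t ht)).2.1]
  exact ((Per.stFil.t22 (k.sm t ht) s h1 h2 y ((k.sm t ht).cubH.hg.deg 2 2 y hy)).1 hy).1

/-- **CONF** -/
theorem conf (hty : TyH) (hP : ∀ t, (P t).IsHomogeneous 3)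
    (hon : ∀ A : S6, A.IsHomogeneous 3 → ∃ w, P w = A) {t0 : T} (ht0 : t0 ∈ ball 0 r)
    {d0 : MM p p 3} (c : Cu (F + P t0)) (h0 : IsMF (F + P t0) p d0.1) {n : H (XF F)}
    (hn : H.map (k.tr t0 ht0).φ (c.nE h0).1 = n) (hJ : h.J (n * n) ≠ 0) :
    Conf (wP h hP) t0 p d0 fun t => h.J (n * σ t) := by
  obtain ⟨a1, -, -, a4, -⟩ := Per.stTop h (per c) (k.tr t0 ht0)
  refine ⟨wP_an h hP t0, k.an n t0 ht0, fun e => hJ ?_, ?_⟩
  · obtain ⟨w, hw⟩ := k.onto hon t0 ht0 n (hn ▸ (a4 4 _).2 (nE_deg c h0))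
      (by rw [← hn, ← a1]; exact (map_mul _ _ _).symm.trans ((congrArg _ (nE_prim c h0)).trans
        (map_zero _))) (hn ▸ J_zero k ht0 (hty c h0))
    have h1 := k.der n t0 ht0 w
    rw [e, hw] at h1
    exact h1.symm
  · filter_upwards [flat Per.stTop k ht0 c h0,
      continuous_fst.continuousAt.eventually (isOpen_ball.mem_nhds ht0)] with x h1 h2 h3
    rw [← hn, ← h1 h2 (cu (k.sm _ h2)) h3]
    exact J_zero k h2 (hty _ h3)

end Vale.Agent.P287T.Oc
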