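import Vale.Agent.P287T.Rr.Defs
import Vale.Agent.P287T.Per.St
import Vale.Agent.P287T.Df.St
import Vale.Agent.P287T.Oc.Tp

/-!
# The class of a matrix factorization is locally constant
-/

set_option linter.unusedSectionVars false
set_option linter.style.haveILetI false

namespace Vale.Agent.P287T.Oc

open Set Function Module Matrix MvPolynomial Filter Topology P291Z P269 P269.Holo P269.Mono P269.Tq
  P269.Ch P269.Grr P287Q P287Q.Cub P287T.Cy P287T.Rr P287T.Df P287Z.O P287Z.O.L Metric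

variable {ι : Type} [Fintype ι] [DecidableEq ι]

section near

variable {Y Y' : Ch.Sp} {χ : Y.G →ₜ* ℂˣ} {χ' : Y'.G →ₜ* ℂˣ} {w w' : ι → ℤ}

theorem fam_pb (m : Mor Y Y') (hχ : ∀ g, χ' (m.ρ g) = χ g) {F : Y'.T → Submodule ℂ (ι → ℂ)}
    {r : ℕ} (h : Fam χ' w F r) : Fam χ w (fun t => F (m.f t)) r :=
  ⟨h.cl.preimage (m.cf.prodMap continuous_id), fun _ => h.rk _, fun g t v hv => by
    rw [m.eqv, ← hχ]
    exact h.iv _ _ _ hv⟩

theorem chc_fam_pb (m : Mor Y Y') (hχ : ∀ g, χ' (m.ρ g) = χ g)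
    {F : Y'.T → Submodule ℂ (ι → ℂ)} {r : ℕ} (h : Fam χ' w F r) :
    (fam_pb m hχ h).vb.chc = pS m.map h.vb.chc := by
  refine Iso.chc (A := fun _ => (LinearMap.id : (ι → ℂ) →ₗ[ℂ] ι → ℂ))
    ⟨Hom.of_continuous (fun _ _ h => h) continuous_snd fun g t v _ => ?_, fun _ _ _ h => h,
      fun _ v h => ⟨v, h, rfl⟩⟩
  refine (am_smul χ w g v).trans (Eq.trans ?_ (am_smul χ' w (m.ρ g) v).symm)
  rw [hχ]

theorem chc_of_inj {F F' : Y.T → Submodule ℂ (ι → ℂ)} {r : ℕ} (h : Fam χ w F r)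
    (h' : Fam χ w F' r) {s : ι → Prop} (hs : ∀ t, ∀ v ∈ F t, ∀ i, ¬s i → v i = 0)
    {P : Y.T → Matrix ι ι ℂ} (cP : Continuous P) (eP : Eqm χ s w w P)
    (hP : ∀ t, ∀ v ∈ F t, P t *ᵥ v ∈ F' t) (inj : ∀ t, ∀ v ∈ F t, P t *ᵥ v = 0 → v = 0) :
    h.vb.chc = h'.vb.chc := by
  refine Iso.chc' (A := fun t => Matrix.mulVecLin (P t)) (Iso.of_inj (Hom.of_continuous hP
    ((cP.comp continuous_fst).matrix_mulVec continuous_snd) fun g t v hv => ?_) inj rfl)
  refine Eq.trans ?_ (am_smul χ w g (P t *ᵥ v)).symm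
  exact (congrArg (P (g • t) *ᵥ ·) (am_smul χ w g v)).trans (eP.mulVec g t (hs t v hv))

theorem Fib_mem {p : ι → ℤ} {D H D' H' : Matrix ι ι ℂ} (h : Fib p 1 D H) (h' : Fib p 1 D' H')
    {v : ι → ℂ} (hv : ∀ i, ¬2 ∣ p i + 0 → v i = 0) :
    (D' * H) *ᵥ v ∈ Vf (fun i => 2 ∣ p i + 0) 1 D' := by
  refine ⟨fun i hi => ?_, one_mulVec _, ?_⟩
  · rw [← mulVec_mulVec]
    exact odd_mulVec (p := p) (q := p) (a := 0 + 1) (b := 1)
      (fun i j k => h'.oD i j (by omega))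
      (odd_mulVec (p := p) (q := p) (a := 0) (b := 1) (fun i j k => h.oH i j (by omega)) hv) i
      (by have : ¬2 ∣ p i + 0 := hi; omega)
  · rw [mulVec_mulVec, ← mul_assoc, h'.DD, zero_mul, zero_mulVec]

theorem finrank_le_of_inj {S S' : Submodule ℂ (ι → ℂ)} {P : Matrix ι ι ℂ}
    (hP : ∀ v ∈ S, P *ᵥ v ∈ S') (inj : ∀ v ∈ S, P *ᵥ v = 0 → v = 0) :
    finrank ℂ S ≤ finrank ℂ S' := by
  rw [← finrank_map_of_inj (f := Matrix.mulVecLin P) inj]
  exact Submodule.finrank_mono (by rintro _ ⟨v, hv, rfl⟩; exact hP v hv)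

/-- nearby exact complexes have isomorphic kernels -/
theorem near {S : Type} [TopologicalSpace S] {s0 : S} {K : Set Y.T} (hK : IsCompact K)
    (hG : ∀ t, ∃ g : Y.G, g • t ∈ K) {p : ι → ℤ} {D : S → Y.T → Matrix ι ι ℂ}
    (cD : ∀ t ∈ K, ContinuousAt (fun q : S × Y.T => D q.1 q.2) (s0, t))
    {H : Y.T → Matrix ι ι ℂ} (cH : Continuous H) (h0 : ∀ t, Fib p 1 (D s0 t) (H t))
    (c0 : Continuous (D s0))
    (eP : Eqm χ (fun i => 2 ∣ p i + 0) w w fun t => D s0 t * H t) {r0 : ℕ}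
    (f0 : Fam χ w (fun t => Vf (fun i => 2 ∣ p i + 0) 1 (D s0 t)) r0) :
    ∀ᶠ s in 𝓝 s0, ∀ r (f : Fam χ w (fun t => Vf (fun i => 2 ∣ p i + 0) 1 (D s t)) r),
      (∀ t, ∃ H', Fib p 1 (D s t) H') → f.vb.chc = f0.vb.chc := by
  have key : ∀ᶠ s in 𝓝 s0, ∀ t ∈ K, (D s0 t * H t + H t * D s t).det ≠ 0 ∧
      (D s t * H t + H t * D s0 t).det ≠ 0 := by
    refine hK.eventually_forall_of_forall_eventually fun t ht => ?_
    have a1 : ContinuousAt (fun q : S × Y.T => H q.2) (s0, t) := (cH.comp continuous_snd).continuousAt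
    have a2 : ContinuousAt (fun q : S × Y.T => D s0 q.2) (s0, t) :=
      (c0.comp continuous_snd).continuousAt
    have a3 : Continuous (Matrix.det : Matrix ι ι ℂ → ℂ) := continuous_id.matrix_det
    refine ((a3.continuousAt.comp ((a2.mul a1).add (a1.mul (cD t ht)))).eventually_ne ?_).and
      ((a3.continuousAt.comp (((cD t ht).mul a1).add (a1.mul a2))).eventually_ne ?_)
    · change (D s0 t * H t + H t * D s0 t).det ≠ 0
      rw [(h0 t).h, det_one]
      exact one_ne_zero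
    · change (D s0 t * H t + H t * D s0 t).det ≠ 0
      rw [(h0 t).h, det_one]
      exact one_ne_zero
  filter_upwards [key] with s hs r f hf
  have i1 : ∀ t ∈ K, ∀ v ∈ Vf (fun i => 2 ∣ p i + 0) 1 (D s t), (D s0 t * H t) *ᵥ v = 0 → v = 0 :=
    fun t ht v hv e => eq_zero_of_mulVec_eq_zero (hs t ht).1 (by
      rw [add_mulVec, e, ← mulVec_mulVec, hv.2.2, mulVec_zero, add_zero])
  have i2 : ∀ t ∈ K, ∀ v ∈ Vf (fun i => 2 ∣ p i + 0) 1 (D s0 t), (D s t * H t) *ᵥ v = 0 → v = 0 :=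
    fun t ht v hv e => eq_zero_of_mulVec_eq_zero (hs t ht).2 (by
      rw [add_mulVec, e, ← mulVec_mulVec, hv.2.2, mulVec_zero, add_zero])
  rcases isEmpty_or_nonempty Y.T with _ | ⟨⟨t⟩⟩
  · exact subsingleton_series.elim _ _
  obtain ⟨g, hg⟩ := hG t
  obtain ⟨H', hH⟩ := hf (g • t)
  obtain rfl : r = r0 := by
    rw [← f.rk (g • t), ← f0.rk (g • t)]
    exact le_antisymm (finrank_le_of_inj (fun v hv => Fib_mem (h0 _) (h0 _) hv.1) (i1 _ hg))
      (finrank_le_of_inj (fun v hv => Fib_mem (h0 _) hH hv.1) (i2 _ hg))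
  refine chc_of_inj f f0 (fun t v hv => hv.1) (c0.mul cH) eP
    (fun t v hv => Fib_mem (h0 _) (h0 _) hv.1) fun t v hv e => ?_
  obtain ⟨g, hg⟩ := hG t
  have h1 := i1 _ hg _ (f.iv g t v hv) (by
    rw [eP.mulVec g t hv.1, show (D s0 t * H t) *ᵥ v = 0 from e]
    exact funext fun _ => mul_zero _)
  exact funext fun i => (mul_eq_zero.1 (congrFun h1 i)).resolve_left
    (zpow_ne_zero _ (χ g).ne_zero)

end near

section cubic

variable {F W : S6} {p : ι → ℤ} {d : Matrix ι ι S6} {Φ : Per.V → Per.V}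

theorem eqv_DH (c : Cu W) (hd : IsMF W p d) {a : ℂ} (ha : a ≠ 0) (x : Fin 6 → ℂ) (i j : ι)
    (hj : 2 ∣ p j + 0) : (evM (a • x) d * hoM W d (a • x)) i j * a ^ wt (p j) =
      a ^ wt (p i) * (evM x d * hoM W d x) i j := by
  have h1 : ∀ k, eval (a • x) (pderiv k W) = a ^ 2 * eval x (pderiv k W) := fun k =>
    Hdg.eval_smul_of_hom (c.hom.pderiv (i := k)) a x
  have h2 : ∀ k, eval (a • x) ((d * d.map (pderiv k)) i j) * a ^ wt (p j) =
      a ^ (wt (p i) + 2) * eval x ((d * d.map (pderiv k)) i j) := fun k => by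
    refine hg_eval (n := 4 + p j - p i) ?_ ha x fun e => ?_
    · rw [Matrix.mul_apply]
      exact hga_sum _ fun l _ => hga_mul' (hd.deg i l) (hg_pderiv (hd.deg l j) k) (by omega)
    · have := wt_even (a := p j) (by omega)
      have := wt_even (a := p i) (by omega)
      omega
  have h3 : ∀ y, (evM y d * hoM W d y) i j =
      (∑ k, (starRingEnd ℂ (eval y (pderiv k W)) * eval y (pderiv k W)))⁻¹ *
        ∑ k, starRingEnd ℂ (eval y (pderiv k W)) * eval y ((d * d.map (pderiv k)) i j) := by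
    intro y
    rw [hoM, Matrix.mul_smul, Finset.mul_sum, Matrix.smul_apply, Matrix.sum_apply, smul_eq_mul]
    congr 1
    refine Finset.sum_congr rfl fun k _ => ?_
    rw [Matrix.mul_smul, ← evM_mul]
    rfl
  have h4 : starRingEnd ℂ a ≠ 0 := (map_ne_zero _).2 ha
  have h5 : ∑ k, starRingEnd ℂ (eval (a • x) (pderiv k W)) * eval (a • x) (pderiv k W) =
      starRingEnd ℂ a ^ 2 * a ^ 2 *
        ∑ k, starRingEnd ℂ (eval x (pderiv k W)) * eval x (pderiv k W) := by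
    rw [Finset.mul_sum]
    exact Finset.sum_congr rfl fun k _ => by rw [h1, map_mul, map_pow]; ring
  have h6 : (∑ k, starRingEnd ℂ (eval (a • x) (pderiv k W)) *
      eval (a • x) ((d * d.map (pderiv k)) i j)) * a ^ wt (p j) = starRingEnd ℂ a ^ 2 * a ^ 2 *
        (a ^ wt (p i) * ∑ k, starRingEnd ℂ (eval x (pderiv k W)) *
          eval x ((d * d.map (pderiv k)) i j)) := by
    rw [Finset.sum_mul, Finset.mul_sum, Finset.mul_sum]
    refine Finset.sum_congr rfl fun k _ => ?_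
    rw [mul_assoc, h2, h1, map_mul, map_pow, zpow_add₀ ha, zpow_ofNat]
    ring
  rw [h3, h3, mul_assoc, h6, h5, mul_inv]
  field_simp

theorem isCompact_sph (c : Cu F) : IsCompact {t : c.Y.T | ‖c.x t‖ = 1} := by
  have h1 : IsEmbedding c.x := Sp.isEmbedding_val (act := acX)
  rw [h1.isCompact_iff]
  have h2 : c.x '' {t : c.Y.T | ‖c.x t‖ = 1} = sphere 0 1 ∩ {x | eval x F = 0} := by
    ext x
    refine ⟨?_, fun h => ⟨Sp.of acX x ⟨?_, h.2⟩, mem_sphere_zero_iff_norm.1 h.1, rfl⟩⟩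
    · rintro ⟨t, ht, rfl⟩
      exact ⟨mem_sphere_zero_iff_norm.2 ht, (c.x_mem t).2⟩
    · exact ne_zero_of_mem_unit_sphere ⟨x, h.1⟩
  rw [h2]
  exact (isCompact_sphere 0 1).inter_right
    (isClosed_eq (MvPolynomial.continuous_eval F) continuous_const)

theorem exists_sph (c : Cu F) (t : c.Y.T) : ∃ g : c.Y.G, g • t ∈ {t : c.Y.T | ‖c.x t‖ = 1} := by
  have h1 : ‖c.x t‖ ≠ 0 := norm_ne_zero_iff.2 (c.x_mem t).1
  have h2 : ((‖c.x t‖⁻¹ : ℝ) : ℂ) ≠ 0 := Complex.ofReal_ne_zero.2 (inv_ne_zero h1)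
  have h3 : IsUnit (fun _ : Unit => ((‖c.x t‖⁻¹ : ℝ) : ℂ)) := Pi.isUnit_iff.2 fun _ => h2.isUnit
  refine ⟨h3.unit, ?_⟩
  change ‖((‖c.x t‖⁻¹ : ℝ) : ℂ) • c.x t‖ = 1
  rw [norm_smul, Complex.norm_real, norm_inv, norm_norm, inv_mul_cancel₀ h1]

/-- the morphism of presented spaces given by a smooth identification -/
noncomputable def mor (c0 : Cu F) (c : Cu W) (e : Per.Tr F W Φ) : Mor c0.Y c.Y :=
  haveI := isAct
  haveI := c0.qm.fp
  haveI := c.qm.fp
  e.eqh.mor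

theorem mor_map (c0 : Cu F) (c : Cu W) (e : Per.Tr F W Φ) : (mor c0 c e).map = e.φ :=
  haveI := isAct
  haveI := c0.qm.fp
  haveI := c.qm.fp
  e.eqh.mor_map

theorem mor_x (c0 : Cu F) (c : Cu W) (e : Per.Tr F W Φ) (t : c0.Y.T) :
    c.x ((mor c0 c e).f t) = Φ (c0.x t) := rfl

theorem mor_χ (c0 : Cu F) (c : Cu W) (e : Per.Tr F W Φ) (g : c0.Y.G) :
    c.χ ((mor c0 c e).ρ g) = c0.χ g := Units.ext rfl

theorem flat_chc (c0 : Cu F) {S : Type} [TopologicalSpace S] {s0 : S} {W : S → S6}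
    {Φ : S → Per.V → Per.V} {d : S → Matrix ι ι S6}
    (cD : ∀ x ∈ Pub.cone F, ContinuousAt (fun q : S × Per.V => evM (Φ q.1 q.2) (d q.1)) (s0, x))
    (c : Cu (W s0)) (e0 : Per.Tr F (W s0) (Φ s0)) (h0 : IsMF (W s0) p (d s0)) :
    ∀ᶠ s in 𝓝 s0, ∀ (c' : Cu (W s)) (e : Per.Tr F (W s) (Φ s)) (h : IsMF (W s) p (d s)),
      pS (mor c0 c' e).map (c'.VE h).chc = pS (mor c0 c e0).map (c.VE h0).chc := by
  have cx : Continuous fun t : c0.Y.T => Φ s0 (c0.x t) := c.x_cont.comp (mor c0 c e0).cf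
  have hx : ∀ t : c0.Y.T, Φ s0 (c0.x t) ∈ Pub.cone (W s0) := fun t => c.x_mem ((mor c0 c e0).f t)
  have := near (χ := c0.χ) (w := fun i => wt (p i)) (s0 := s0) (isCompact_sph c0) (exists_sph c0)
    (p := p) (D := fun s t => evM (Φ s (c0.x t)) (d s)) (fun t _ => ContinuousAt.comp
      (f := fun q : S × c0.Y.T => (q.1, c0.x q.2)) (x := (s0, t)) (cD _ (c0.x_mem t))
      (continuous_fst.prodMk (c0.x_cont.comp continuous_snd)).continuousAt)
    (H := fun t => hoM (W s0) (d s0) (Φ s0 (c0.x t)))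
    (continuous_hoM c.sm _ cx fun t => (hx t).1) (fun t => fib c.sm h0 (hx t))
    ((continuous_evM _).comp cx) (fun g t i j hj => by
      have h1 := eqv_DH c h0 (c0.χ g).ne_zero (Φ s0 (c0.x t)) i j hj
      rw [← e0.eq _ _ (c0.χ g).ne_zero (c0.x_mem t).1, ← c0.x_smul] at h1
      exact h1)
    (fam_pb (mor c0 c e0) (mor_χ c0 c e0) (c.fam h0 0))
  filter_upwards [this] with s hs c' e h
  have h1 := hs _ (fam_pb (mor c0 c' e) (mor_χ c0 c' e) (c'.fam h 0))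
    fun t => ⟨_, fib c'.sm h (c'.x_mem ((mor c0 c' e).f t))⟩
  exact (chc_fam_pb _ (mor_χ c0 c' e) (c'.fam h 0)).symm.trans
    (h1.trans (chc_fam_pb _ (mor_χ c0 c e0) (c.fam h0 0)))

theorem map_nE (hT : Per.StTop) (c0 : Cu F) (c : Cu W) (e : Per.Tr F W Φ) (h : IsMF W p d) :
    H.map e.φ (c.nE h).1 =
      (c0.prim (PowerSeries.coeff 2 (pS (mor c0 c e).map (c.VE h).chc))).1 := by
  obtain ⟨h1, h2, -⟩ := hT (F := F) (F' := W) ⟨c0.hom, c0.sm⟩ ⟨c.hom, c.sm⟩ e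
  have h3 : Hev.map (mor c0 c e).map c.h = c0.h := Subtype.ext (by
    rw [Hev.coe_map, mor_map]
    exact (congrArg (H.map e.φ) c.h_val).trans (h1.trans c0.h_val.symm))
  have h4 : ∀ y : Hev c.Y.X, c0.J (Hev.map (mor c0 c e).map y).1 = c.J y.1 := fun y => by
    rw [Hev.coe_map, mor_map]
    exact h2 y.1
  have h5 : ∀ a : Hev c.Y.X, Hev.map (mor c0 c e).map (c.prim a) =
      c0.prim (Hev.map (mor c0 c e).map a) := fun a => by
    rw [Cu.prim, Cu.prim, map_sub, map_smul, map_pow, h3, ← h4, map_mul, map_pow, h3]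
  rw [PowerSeries.coeff_map, ← mor_map c0 c e]
  exact congrArg Subtype.val (h5 _)

theorem cont_eval {E : Type} [NormedAddCommGroup E] [NormedSpace ℂ E] [FiniteDimensional ℂ E]
    (L : E →ₗ[ℂ] S6) : Continuous fun q : E × (Fin 6 → ℂ) => eval q.2 (L q.1) := by
  let b := Module.finBasis ℂ E
  have h1 : (fun q : E × (Fin 6 → ℂ) => eval q.2 (L q.1)) =
      fun q => ∑ k, b.coord k q.1 * eval q.2 (L (b k)) := by
    funext q
    conv_lhs => rw [← b.sum_repr q.1]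
    simp only [map_sum, map_smul, smul_eval, Basis.coord_apply]
  rw [h1]
  exact continuous_finsetSum _ fun k _ =>
    ((b.coord k).continuous_of_finiteDimensional.comp continuous_fst).mul
      ((MvPolynomial.continuous_eval _).comp continuous_snd)

theorem cont_evM {κ : Type} [Fintype κ] (p : ι → ℤ) (q : κ → ℤ) (j : ℤ) :
    Continuous fun x : MM p q j × (Fin 6 → ℂ) => evM x.2 x.1.1 :=
  continuous_matrix fun i l => cont_eval
    { toFun := fun g : MM p q j => g.1 i l, map_add' := fun _ _ => rfl, map_smul' := fun _ _ => rfl }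

/-- **The class is flat.** -/
theorem flat (hT : Per.StTop) {h : Per.Sm F} {T : Type} [NormedAddCommGroup T] [NormedSpace ℂ T]
    {P : T →ₗ[ℂ] S6} {r : ℝ} {Φ : T → Per.V → Per.V} {σ : T → H (XF F)}
    {η : T → T →ₗ[ℂ] H (XF F)} (k : Per.PM h P r Φ σ η) {t0 : T} (ht0 : t0 ∈ ball 0 r)
    {d0 : MM p p 3} (c : Cu (F + P t0)) (h0 : IsMF (F + P t0) p d0.1) :
    ∀ᶠ x : T × MM p p 3 in 𝓝 (t0, d0), ∀ (ht : x.1 ∈ ball 0 r) (c' : Cu (F + P x.1))
      (hd : IsMF (F + P x.1) p x.2.1),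
      H.map (k.tr x.1 ht).φ (c'.nE hd).1 = H.map (k.tr t0 ht0).φ (c.nE h0).1 := by
  have c0 : Cu F := ⟨h.hom, h.sm⟩
  have := flat_chc c0 (s0 := (t0, d0)) (W := fun x : T × MM p p 3 => F + P x.1)
    (Φ := fun x => Φ x.1) (d := fun x => x.2.1) (fun x hx => ContinuousAt.comp
      (f := fun q : (T × MM p p 3) × Per.V => (q.1.2, Φ q.1.1 q.2)) (x := ((t0, d0), x))
      (cont_evM p p 3).continuousAt (continuous_fst.snd.continuousAt.prodMk (ContinuousAt.comp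
        (f := fun q : (T × MM p p 3) × Per.V => (q.2, q.1.1)) (x := ((t0, d0), x))
        (k.fam t0 ht0 x hx.1).continuousAt
        (continuous_snd.prodMk continuous_fst.fst).continuousAt))) c (k.tr t0 ht0) h0
  filter_upwards [this] with x hx ht c' hd
  rw [map_nE hT c0 c' (k.tr x.1 ht) hd, map_nE hT c0 c (k.tr t0 ht0) h0, hx c' (k.tr x.1 ht) hd]

end cubic

end Vale.Agent.P287T.Oc
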