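import Vale.Agent.P287T.Oc.Conf
import Vale.Agent.P287T.Oc.Lim
import Vale.Agent.P287T.Sw.Sys
import Vale.Agent.P287T.Cl.St

/-!
# The realised classes form an open and closed subset of the Noether-Lefschetz locus
-/

set_option linter.unusedSectionVars false

namespace Vale.Agent.P287T.Oc

open MvPolynomial Filter Topology CategoryTheory Module Metric P291Z P269 P287Q P287Q.Cub P294
  P287T.Cy P287T.Rr P287T.Df P287T.G3 P287T.Sw P287T.Top P287T.Cl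

variable {F W : S6}

/-- the class `v` is the class of a semistable object -/
def PP (F : S6) (v : Cls F) : Prop :=
  ∃ (c : Cu F) (E : HM F) (φ : ℝ), (sgW c).P φ E ∧ clE c E = v

theorem tyH (hM : StMem) : TyH := fun c _ _ h => (hM c h).2

theorem cl_aE (c : Cu W) (E : HM W) : (clE c E).1 = aE E := by
  rw [aE, ← wI_eq]
  rfl

theorem intZ (hM : StMem) (c : Cu W) : IntZ W := fun E =>
  ⟨_, _, by rw [← cl_aE c]; exact LT_eq (hM c E.isMF).1⟩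

theorem pm (c : Cu W) {E : HM W} (h : PrimA (clE c E).1) : Pm E := by
  obtain ⟨p1, p2, h, hc⟩ := h
  rw [Pm, ← cl_aE c, Pq_eq h, q1_eq, q2_eq]
  exact hc

theorem fst_ne {v : Cls F} (hv : Node v) : v.1 ≠ 0 := fun e => by
  have := hv.big
  rw [e, map_zero] at this
  norm_num at this

theorem J_ne {v : Cls F} (hv : Node v) : JF F (v.2 * v.2) ≠ 0 := fun e => by
  have h1 := hv.iso
  rw [Top.mk, e, sub_zero, ← Complex.normSq_eq_conj_mul_self, Complex.ofReal_re] at h1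
  have h2 : Complex.normSq v.1 = 0 := by
    exact_mod_cast (mul_eq_zero.1 h1).resolve_left (by norm_num)
  exact fst_ne hv (Complex.normSq_eq_zero.1 h2)

theorem Zf_cl (c : Cu W) (E : HM W) : G3.Zf E = (1 - om) ^ 3 * (clE c E).1 := by
  rw [Sw.Zf_eq]
  exact (mul_div_cancel₀ _ c0_ne).symm

theorem ray_phase {m m' φ ψ : ℝ} (h : (m : ℂ) * ray φ = m' * ray ψ) (hm : 0 ≤ m) (hm' : 0 ≤ m')
    (h0 : (m : ℂ) * ray φ ≠ 0) : ∃ k : ℤ, ψ = φ + 2 * k := by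
  have h1 : m = m' := by
    have := congrArg norm h
    simpa only [norm_mul, norm_ray, mul_one, Complex.norm_real, Real.norm_of_nonneg hm,
      Real.norm_of_nonneg hm'] using this
  subst h1
  have h2 := mul_left_cancel₀ (left_ne_zero_of_mul h0) h
  rw [ray, ray] at h2
  obtain ⟨k, hk⟩ := Complex.exp_eq_exp_iff_exists_int.1 h2.symm
  refine ⟨k, ?_⟩
  have h3 := congrArg Complex.im hk
  simp at h3
  exact mul_left_cancel₀ Real.pi_ne_zero (by linarith)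

theorem add_even {C : Type*} [Category C] [Preadditive C] [Limits.HasZeroObject C] [HasShift C ℤ]
    [∀ n : ℤ, (shiftFunctor C n).Additive] [Pretriangulated C] {M : Type} [AddCommGroup M]
    {Z : C → M} (h : AddTri Z) (X : C) (k : ℤ) : Z (X⟦2 * k⟧) = Z X := by
  have h1 : ∀ n : ℤ, Z (X⟦n + 1⟧) = -Z (X⟦n⟧) := fun n =>
    (h.isoG ((shiftFunctorAdd C n 1).app X)).trans (h.shiftG _)
  induction k using Int.induction_on with
  | zero => exact h.isoG ((shiftFunctorZero C ℤ).app X)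
  | succ k ih => rw [show 2 * ((k : ℤ) + 1) = 2 * k + 1 + 1 by ring, h1, h1, neg_neg, ih]
  | pred k ih =>
    rw [show 2 * (-(k : ℤ)) = 2 * (-k - 1) + 1 + 1 by ring, h1, h1, neg_neg] at ih
    exact ih

theorem exists_proj {E : Type} [NormedAddCommGroup E] [NormedSpace ℂ E] [FiniteDimensional ℂ E]
    (K : Submodule ℂ E) : ∃ π : E →L[ℂ] E, (∀ g, π g ∈ K) ∧ ∀ g ∈ K, π g = g := by
  obtain ⟨r, hr⟩ := K.subtype.exists_leftInverse_of_injective K.ker_subtype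
  exact ⟨(K.subtype ∘ₗ r).toContinuousLinearMap, fun g => (r g).2,
    fun g hg => congrArg Subtype.val (LinearMap.congr_fun hr ⟨g, hg⟩)⟩

variable {T : Type} [NormedAddCommGroup T] [NormedSpace ℂ T] [FiniteDimensional ℂ T]
  {P : T →ₗ[ℂ] S6} {h : Per.Sm F} {r : ℝ} {Φ : T → Per.V → Per.V} {σ : T → H (XF F)}
  {η : T → T →ₗ[ℂ] H (XF F)} (k : Per.PM h P r Φ σ η)

/-- the class is flat along converging matrix factorizations -/
theorem flat_cl {I : Type} {l : Filter I} {t : I → T} {t0 : T} (ht0 : t0 ∈ ball 0 r)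
    (ht : Tendsto t l (𝓝 t0)) (c : Cu (F + P t0)) (E : HM (F + P t0)) {d : I → MM E.pz E.pz 3}
    (hd : Tendsto d l (𝓝 (dM E))) : ∀ᶠ n in l, ∀ (hn : t n ∈ ball 0 r) (c' : Cu (F + P (t n)))
      (e : IsMF (F + P (t n)) E.pz (d n).1),
      tr (k.tr _ hn).φ (clE c' (ofRaw e)) = tr (k.tr t0 ht0).φ (clE c E) := by
  filter_upwards [(ht.prodMk_nhds hd).eventually
    (flat Per.stTop k ht0 (d0 := dM E) c E.isMF)] with n h1 hn c' e
  exact Prod.ext rfl (h1 hn c' e)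

/-- a simple object deforms along the Noether-Lefschetz locus -/
theorem deform (hK : StKur) (hty : TyH) (hP : ∀ t, (P t).IsHomogeneous 3)
    (hon : ∀ A : S6, A.IsHomogeneous 3 → ∃ w, P w = A) {t0 : T} (ht0 : t0 ∈ ball 0 r)
    (c : Cu (F + P t0)) (E : HM (F + P t0)) (h2 : finrank ℂ (HH E.pz E.dz E.pz E.dz 6) ≤ 1)
    {v : Cls F} (hv : tr (k.tr t0 ht0).φ (clE c E) = v) (hJ : JF F (v.2 * v.2) ≠ 0) :
    ∃ D : T → MM E.pz E.pz 3, AnalyticAt ℂ D t0 ∧ D t0 = dM E ∧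
      ∀ᶠ t in 𝓝 t0, JF F (v.2 * σ t) = 0 → IsMF (F + P t) E.pz (D t).1 := by
  obtain ⟨π, a1, a2⟩ := exists_proj ((ZZ E.pz E.dz E.pz (-E.dz) 3).comap (MM E.pz E.pz 3).subtype)
  obtain ⟨s, b1, b2, b3⟩ := hK (wP h hP) t0 E.pz (dM E) _ E.isMF h2
    (conf k hty hP hon ht0 (d0 := dM E) c E.isMF (congrArg Prod.snd hv) hJ) π a1 a2
  have b4 : AnalyticAt ℂ (fun t : T => (t, dM E)) t0 := analyticAt_id.prod analyticAt_const
  exact ⟨fun t => s (t, dM E), b1.comp_of_eq b4 rfl, b2,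
    (b4.continuousAt.eventually b3).mono fun t ht => ht.2.1⟩

theorem opn' (hO : OpO) (hK : StKur) (hM : StMem) (hP : ∀ t, (P t).IsHomogeneous 3)
    (hon : ∀ A : S6, A.IsHomogeneous 3 → ∃ w, P w = A) {t0 : T} (ht0 : t0 ∈ ball 0 r)
    (c : Cu (F + P t0)) (E : HM (F + P t0)) {φ : ℝ} (hE : (sgW c).P φ E) {v : Cls F}
    (hv : tr (k.tr t0 ht0).φ (clE c E) = v) (hn : Node v) :
    ∀ᶠ t in 𝓝 t0, JF F (v.2 * σ t) = 0 → ∃ (ht : t ∈ ball 0 r) (c' : Cu (F + P t))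
      (E' : HM (F + P t)), (sgW c').P φ E' ∧ tr (k.tr t ht).φ (clE c' E') = v := by
  have h2 := ((intZ hM c).latD.dims (cy2 c) (stabW c) hE
    (pm c (congrArg Prod.fst hv ▸ hn.prim :))).2.2.2.1
  obtain ⟨D, b1, b2, b3⟩ := deform k hK (tyH hM) hP hon ht0 c E ((hd_eq E E 2).symm.trans h2).le hv
    (J_ne hn)
  have b4 : Tendsto D (𝓝 t0) (𝓝 (dM E)) := b2 ▸ b1.continuousAt
  filter_upwards [b3, isOpen_ball.mem_nhds ht0, flat_cl k ht0 tendsto_id c E b4,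
    open_raw hO (W := fun t => F + P t) c (fun m => (an_coeff F P m t0).continuousAt) b4 hE]
    with t e1 e2 e3 e4 e5
  exact ⟨e2, cu (k.sm t e2), ofRaw (e1 e5), e4 _ _, (e3 e2 _ _).trans hv⟩

theorem cls' (hP : OpP) (hA : StAdd) {I : Type} {l : Filter I} [l.NeBot] {t : I → T} {t0 : T}
    (ht0 : t0 ∈ ball 0 r) (ht : Tendsto t l (𝓝 t0)) (hb : ∀ n, t n ∈ ball 0 r)
    (c : ∀ n, Cu (F + P (t n))) (E : ∀ n, HM (F + P (t n))) {φ : ℝ} {v : Cls F}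
    (hE : ∀ n, (sgW (c n)).P φ (E n) ∧ tr (k.tr _ (hb n)).φ (clE (c n) (E n)) = v) :
    ∃ (c0 : Cu (F + P t0)) (E0 : HM (F + P t0)), (sgW c0).P φ E0 ∧
      tr (k.tr t0 ht0).φ (clE c0 E0) = v := by
  have c0 := cu (k.sm t0 ht0)
  have h1 : Tendsto t (Ultrafilter.of l) (𝓝 t0) := ht.mono_left (Ultrafilter.of_le l)
  obtain ⟨E0, a1, d, a2, a3⟩ := cpt_raw hP (Ultrafilter.of l) (W := fun n => F + P (t n)) c c0
    (fun m => (an_coeff F P m t0).continuousAt.tendsto.comp h1) E (z := (1 - om) ^ 3 * v.1)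
    (Eventually.of_forall fun n => ⟨(hE n).1, by rw [Zf_cl (c n), ← (hE n).2]; rfl⟩)
  obtain ⟨n, ⟨e, ⟨i⟩⟩, a4⟩ := (a3.and (flat_cl k ht0 h1 c0 E0 a2)).exists
  exact ⟨c0, E0, a1, by rw [← a4 (hb n) (c n) e, (hA (c n)).1.isoG i, (hE n).2]⟩

/-- the phase can be normalised -/
theorem shift_phase (hA : StAdd) {W' : S6} (c : Cu W) (c' : Cu W') {E : HM W} {E' : HM W'}
    {φ ψ : ℝ} (hE : (sgW c).P φ E) (hE' : (sgW c').P ψ E') (e : (clE c E).1 = (clE c' E').1)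
    (h0 : (clE c E).1 ≠ 0) : ∃ E'' : HM W', (sgW c').P φ E'' ∧ clE c' E'' = clE c' E' := by
  obtain ⟨m, a1, a2⟩ := (stabW c).ph φ E hE
  obtain ⟨m', b1, b2⟩ := (stabW c').ph ψ E' hE'
  have p := mul_nonneg (stabW c).cpos.le (Nat.cast_nonneg (α := ℝ) (G3.rk E))
  have p' := mul_nonneg (stabW c).cpos.le (Nat.cast_nonneg (α := ℝ) (G3.rk E'))
  obtain ⟨j, hj⟩ := ray_phase (φ := φ) (ψ := ψ) (by rw [← a2, ← b2, Zf_cl c, Zf_cl c', e])
    (p.trans a1) (p'.trans b1) (by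
      rw [← a2, Zf_cl c]
      exact neg_ne_zero.2 (mul_ne_zero c0_ne h0))
  refine ⟨E'⟦2 * -j⟧, ?_, add_even (hA c').1 E' _⟩
  have := ((sgW c').shiftP_int ψ (2 * -j) E').2 hE'
  rwa [show ψ + ((2 * -j : ℤ) : ℝ) = φ by rw [hj]; push_cast; ring] at this

/-- **OC, open** -/
theorem opn (hO : OpO) (hK : StKur) (hM : StMem) {F : S6} {h : Per.Sm F} {r Φ σ η}
    (k : Per.PM h p3 r Φ σ η) (v : Cls F) (hv : Node v) (t₀ : T3) (a : At PP k v t₀) :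
    ∀ᶠ t in 𝓝 t₀, JF F (v.2 * σ t) = 0 → At PP k v t := by
  obtain ⟨ht0, _, e, c, E, φ, hE, rfl⟩ := a
  filter_upwards [opn' k hO hK hM p3_hom p3_onto ht0 c E hE e hv] with t h1 h2
  obtain ⟨ht, c', E', h3, h4⟩ := h1 h2
  exact ⟨ht, _, h4, c', E', φ, h3, rfl⟩

/-- **OC, closed** -/
theorem cls (hP : OpP) (hA : StAdd) {F : S6} {h : Per.Sm F} {r Φ σ η}
    (k : Per.PM h p3 r Φ σ η) (v : Cls F) (hv : Node v) (t : ℕ → T3) (t₀ : T3)
    (ht0 : t₀ ∈ ball (0 : T3) r) (ht : Tendsto t atTop (𝓝 t₀)) (a : ∀ n, At PP k v (t n)) :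
    At PP k v t₀ := by
  have b : ∀ n, ∃ (hb : t n ∈ ball 0 r) (c : Cu (F + p3 (t n))) (E : HM (F + p3 (t n))) (φ : ℝ),
      (sgW c).P φ E ∧ tr (k.tr _ hb).φ (clE c E) = v := fun n => by
    obtain ⟨hb, _, e, c, E, φ, hE, rfl⟩ := a n
    exact ⟨hb, c, E, φ, hE, e⟩
  choose hb c E φ h1 h2 using b
  have h3 : ∀ n, (clE (c n) (E n)).1 = v.1 := fun n => congrArg Prod.fst (h2 n)
  choose E' h4 h5 using fun n => shift_phase hA (c 0) (c n) (h1 0) (h1 n)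
    ((h3 0).trans (h3 n).symm) ((h3 0).symm ▸ fst_ne hv)
  obtain ⟨c0, E0, h6, h7⟩ := cls' k hP hA ht0 ht hb c E' fun n => ⟨h4 n, (h5 n).symm ▸ h2 n⟩
  exact ⟨ht0, _, h7, c0, E0, _, h6, rfl⟩

end Vale.Agent.P287T.Oc
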